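import Mathlib

/-! Integral versus fractional expectation thresholds: definitions and the greedy selection lemma. -/

namespace P034F

open Finset

/-- `G` covers `F`: every member of `F` contains some member of `G`. -/
def Covers {α : Type*} (G : Finset (Finset α)) (F : Set (Finset α)) : Prop :=
  ∀ H ∈ F, ∃ S ∈ G, S ⊆ H

/-- The cost of `G` at `p`. -/
noncomputable def cost {α : Type*} (p : ℝ) (G : Finset (Finset α)) : ℝ :=
  ∑ S ∈ G, p ^ S.card

/-- `F` is `p`-small: some cover of `F` costs at most `1/2` at `p`. -/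
def IsSmall {α : Type*} (F : Set (Finset α)) (p : ℝ) : Prop :=
  ∃ G : Finset (Finset α), Covers G F ∧ cost p G ≤ 1 / 2

/-- `F` has a fractional cover of cost at most `1/2` at `p`. -/
def IsFracSmall {α : Type*} [Fintype α] (F : Set (Finset α)) (p : ℝ) : Prop :=
  ∃ g : Finset α → ℝ, (∀ S, 0 ≤ g S ∧ g S ≤ 1) ∧
    (∀ H ∈ F, 1 ≤ ∑ S ∈ H.powerset, g S) ∧ ∑ S : Finset α, g S * p ^ S.card ≤ 1 / 2

/-- The expectation threshold. -/
noncomputable def qInt {α : Type*} (F : Set (Finset α)) : ℝ :=
  sSup {p : ℝ | 0 ≤ p ∧ p ≤ 1 ∧ IsSmall F p}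

/-- The fractional expectation threshold. -/
noncomputable def qFrac {α : Type*} [Fintype α] (F : Set (Finset α)) : ℝ :=
  sSup {p : ℝ | 0 ≤ p ∧ p ≤ 1 ∧ IsFracSmall F p}

section Proof


variable {α : Type*} [Fintype α] [DecidableEq α]

/-- The potential of a set. -/
noncomputable def pot (g : Finset α → ℝ) (s : ℝ) (T : Finset α) : ℝ :=
  ∑ S : Finset α, g S * s ^ (S \ T).card

lemma cost_nonneg {q : ℝ} (hq : 0 ≤ q) (G : Finset (Finset α)) : 0 ≤ cost q G :=
  Finset.sum_nonneg fun _ _ => pow_nonneg hq _

lemma pot_mono (g : Finset α → ℝ) (hg : ∀ S, 0 ≤ g S) {s s' : ℝ} (hs : 0 ≤ s) (h : s ≤ s')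
    (T : Finset α) : pot g s T ≤ pot g s' T := by
  unfold pot
  apply Finset.sum_le_sum
  intro S _
  exact mul_le_mul_of_nonneg_left (pow_le_pow_left₀ hs h _) (hg S)

lemma expand (s : ℝ) (A R : Finset α) :
    s ^ (A \ R).card = ∑ U ∈ A.powerset,
      (if U ⊆ R then (1 : ℝ) else 0) * ((1 - s) ^ U.card * s ^ (A.card - U.card)) := by
  have h1 : s ^ (A \ R).card = ∏ x ∈ A, ((if x ∈ R then (1 - s) else 0) + s) := by
    have h2 : ∀ x ∈ A, ((if x ∈ R then (1 - s) else 0) + s) = if x ∈ R then (1 : ℝ) else s := by
      intro x _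
      split_ifs <;> ring
    rw [Finset.prod_congr rfl h2, Finset.prod_ite, Finset.prod_const_one, one_mul,
      Finset.prod_const]
    congr 2
    ext x
    simp [Finset.mem_sdiff]
  rw [h1, Finset.prod_add]
  apply Finset.sum_congr rfl
  intro U hU
  have hUA : U ⊆ A := Finset.mem_powerset.1 hU
  rw [Finset.prod_const, Finset.card_sdiff_of_subset hUA]
  by_cases hUR : U ⊆ R
  · rw [if_pos hUR, one_mul]
    congr 1
    rw [← Finset.prod_const]
    apply Finset.prod_congr rfl
    intro x hx
    rw [if_pos (hUR hx)]
  · rw [if_neg hUR, zero_mul]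
    obtain ⟨x, hxU, hxR⟩ := Finset.not_subset.1 hUR
    rw [Finset.prod_eq_zero hxU (by rw [if_neg hxR]), zero_mul]

/-- The key selection step. -/
lemma select (g : Finset α → ℝ) (hg : ∀ S, 0 ≤ g S) {s s' q lam : ℝ} (hs : 0 ≤ s) (hs1 : s ≤ 1)
    (hq : 0 < q) (hlam : 0 < lam) (hs' : s + lam * q ≤ s') (G : Finset (Finset α))
    (hG : ∀ R ∈ G, 1 ≤ pot g s R) (hM : 0 < cost q G) :
    ∃ T : Finset α, 1 ≤ pot g s' T ∧
      cost q G * (lam * q) ^ T.card ≤ cost q (G.filter (fun R => T ⊆ R)) := by
  have hlq : 0 < lam * q := mul_pos hlam hq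
  obtain ⟨T, -, hT⟩ := Finset.exists_max_image (Finset.univ : Finset (Finset α))
    (fun T => cost q (G.filter (fun R => T ⊆ R)) / (lam * q) ^ T.card) ⟨∅, Finset.mem_univ _⟩
  set D : Finset α → ℝ := fun T => cost q (G.filter (fun R => T ⊆ R)) with hD
  have hDempty : D ∅ = cost q G := by
    simp [hD]
  have hTbase : cost q G * (lam * q) ^ T.card ≤ D T := by
    have h := hT ∅ (Finset.mem_univ _)
    have h2 : D ∅ / (lam * q) ^ (∅ : Finset α).card ≤ D T / (lam * q) ^ T.card := h
    rw [hDempty, Finset.card_empty, pow_zero, div_one, le_div_iff₀ (pow_pos hlq _)] at h2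
    exact h2
  have hDT : 0 < D T := lt_of_lt_of_le (mul_pos hM (pow_pos hlq _)) hTbase
  refine ⟨T, ?_, hTbase⟩
  have hmax : ∀ U : Finset α, Disjoint T U → D (T ∪ U) ≤ D T * (lam * q) ^ U.card := by
    intro U hU
    have h := hT (T ∪ U) (Finset.mem_univ _)
    have h2 : D (T ∪ U) / (lam * q) ^ (T ∪ U).card ≤ D T / (lam * q) ^ T.card := h
    rw [Finset.card_union_of_disjoint hU, pow_add, div_le_div_iff₀
      (mul_pos (pow_pos hlq _) (pow_pos hlq _)) (pow_pos hlq _)] at h2
    have h3 : 0 < (lam * q) ^ T.card := pow_pos hlq _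
    have h4 : D (T ∪ U) * (lam * q) ^ T.card ≤ (D T * (lam * q) ^ U.card) * (lam * q) ^ T.card := by
      calc D (T ∪ U) * (lam * q) ^ T.card ≤ D T * ((lam * q) ^ T.card * (lam * q) ^ U.card) := h2
        _ = (D T * (lam * q) ^ U.card) * (lam * q) ^ T.card := by ring
    exact le_of_mul_le_mul_right h4 h3
  -- the main estimate for one `S`
  have hone : ∀ S : Finset α, ∑ R ∈ G.filter (fun R => T ⊆ R), q ^ R.card * s ^ (S \ R).card
      ≤ D T * s' ^ (S \ T).card := by
    intro S
    have hrew : ∀ R ∈ G.filter (fun R => T ⊆ R), q ^ R.card * s ^ (S \ R).card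
        = ∑ U ∈ (S \ T).powerset, ((1 - s) ^ U.card * s ^ ((S \ T).card - U.card)) *
          ((if U ⊆ R then (1 : ℝ) else 0) * q ^ R.card) := by
      intro R hR
      have hTR : T ⊆ R := (Finset.mem_filter.1 hR).2
      have h1 : S \ R = (S \ T) \ R := by
        ext x
        simp only [Finset.mem_sdiff]
        constructor
        · rintro ⟨h1, h2⟩
          exact ⟨⟨h1, fun h => h2 (hTR h)⟩, h2⟩
        · rintro ⟨⟨h1, -⟩, h2⟩
          exact ⟨h1, h2⟩
      rw [h1, expand s (S \ T) R, Finset.mul_sum]
      apply Finset.sum_congr rfl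
      intro U _
      ring
    rw [Finset.sum_congr rfl hrew, Finset.sum_comm]
    have hU : ∀ U ∈ (S \ T).powerset,
        ∑ R ∈ G.filter (fun R => T ⊆ R), ((1 - s) ^ U.card * s ^ ((S \ T).card - U.card)) *
          ((if U ⊆ R then (1 : ℝ) else 0) * q ^ R.card)
        ≤ D T * (((1 - s) * (lam * q)) ^ U.card * s ^ ((S \ T).card - U.card)) := by
      intro U hU
      have hUS : U ⊆ S \ T := Finset.mem_powerset.1 hU
      have hdis : Disjoint T U := by
        rw [Finset.disjoint_left]
        intro x hxT hxU
        exact (Finset.mem_sdiff.1 (hUS hxU)).2 hxT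
      rw [← Finset.mul_sum]
      have h1 : ∑ R ∈ G.filter (fun R => T ⊆ R), ((if U ⊆ R then (1 : ℝ) else 0) * q ^ R.card)
          = D (T ∪ U) := by
        simp only [hD, cost, ite_mul, one_mul, zero_mul]
        rw [← Finset.sum_filter, Finset.filter_filter]
        apply Finset.sum_congr _ (fun _ _ => rfl)
        ext R
        simp only [Finset.mem_filter, Finset.union_subset_iff]
      rw [h1]
      have h2 : 0 ≤ (1 - s) ^ U.card * s ^ ((S \ T).card - U.card) :=
        mul_nonneg (pow_nonneg (by linarith) _) (pow_nonneg hs _)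
      calc (1 - s) ^ U.card * s ^ ((S \ T).card - U.card) * D (T ∪ U)
          ≤ (1 - s) ^ U.card * s ^ ((S \ T).card - U.card) * (D T * (lam * q) ^ U.card) :=
            mul_le_mul_of_nonneg_left (hmax U hdis) h2
        _ = D T * (((1 - s) * (lam * q)) ^ U.card * s ^ ((S \ T).card - U.card)) := by
            rw [mul_pow (1 - s) (lam * q)]; ring
    refine (Finset.sum_le_sum hU).trans ?_
    rw [← Finset.mul_sum, Finset.sum_pow_mul_eq_add_pow]
    apply mul_le_mul_of_nonneg_left _ hDT.le
    apply pow_le_pow_left₀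
    · have := mul_nonneg (sub_nonneg.2 hs1) hlq.le
      linarith
    · nlinarith [mul_nonneg hs hlq.le]
  -- sum over `S`
  have hsum : D T ≤ D T * pot g s' T := by
    calc D T = ∑ R ∈ G.filter (fun R => T ⊆ R), q ^ R.card * 1 := by
          simp only [hD, cost, mul_one]
      _ ≤ ∑ R ∈ G.filter (fun R => T ⊆ R), q ^ R.card * pot g s R := by
          apply Finset.sum_le_sum
          intro R hR
          exact mul_le_mul_of_nonneg_left (hG R (Finset.mem_filter.1 hR).1) (pow_nonneg hq.le _)
      _ = ∑ S : Finset α, g S *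
            ∑ R ∈ G.filter (fun R => T ⊆ R), q ^ R.card * s ^ (S \ R).card := by
          simp only [pot, Finset.mul_sum]
          rw [Finset.sum_comm]
          apply Finset.sum_congr rfl
          intro S _
          apply Finset.sum_congr rfl
          intro R _
          ring
      _ ≤ ∑ S : Finset α, g S * (D T * s' ^ (S \ T).card) := by
          apply Finset.sum_le_sum
          intro S _
          exact mul_le_mul_of_nonneg_left (hone S) (hg S)
      _ = D T * pot g s' T := by
          simp only [pot, Finset.mul_sum]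
          apply Finset.sum_congr rfl
          intro S _
          ring
  have h5 : D T * 1 ≤ D T * pot g s' T := by linarith
  exact le_of_mul_le_mul_left h5 hDT

/-- The cost function after one round. -/
noncomputable def phi (y : ℝ) : ℝ := if y ≤ 1 then 1 else 2 + Real.log y

lemma phi_le {y B : ℝ} (hB : 1 ≤ B) (h : y ≤ B) : phi y ≤ 2 + Real.log B := by
  unfold phi
  have hlog : 0 ≤ Real.log B := Real.log_nonneg hB
  split_ifs with h1
  · linarith
  · have : Real.log y ≤ Real.log B := Real.log_le_log (by linarith) h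
    linarith


/-- One round of the greedy cover. -/
lemma step (g : Finset α → ℝ) (hg : ∀ S, 0 ≤ g S) {s s' q lam : ℝ} (hs : 0 ≤ s) (hs1 : s ≤ 1)
    (hq : 0 < q) (hlam : 1 ≤ lam) (hs' : s + lam * q ≤ s') (m : ℕ)
    (hmin : ∀ T, 1 ≤ pot g s' T → m ≤ T.card) :
    ∀ (n : ℕ) (G : Finset (Finset α)), G.card ≤ n → (∀ R ∈ G, 1 ≤ pot g s R) →
      ∃ G' : Finset (Finset α), (∀ T ∈ G', 1 ≤ pot g s' T) ∧ (∀ R ∈ G, ∃ T ∈ G', T ⊆ R) ∧
        lam ^ m * cost q G' ≤ phi (lam ^ m * cost q G) := by
  set Lam : ℝ := lam ^ m with hLam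
  have hLam1 : 1 ≤ Lam := one_le_pow₀ hlam
  have hLam0 : 0 < Lam := by linarith
  have hlam0 : 0 < lam := by linarith
  have hss : s ≤ s' := by nlinarith [mul_pos hlam0 hq]
  intro n
  induction n with
  | zero =>
    intro G hGn hG
    have hGe : G = ∅ := Finset.card_eq_zero.1 (Nat.le_zero.1 hGn)
    subst hGe
    refine ⟨∅, by simp, by simp, ?_⟩
    simp [cost, phi]
  | succ n ih =>
    intro G hGn hG
    by_cases hsmall : Lam * cost q G ≤ 1
    · refine ⟨G, fun T hT => (hG T hT).trans (pot_mono g hg hs hss T), fun R hR => ⟨R, hR, subset_rfl⟩, ?_⟩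
      unfold phi
      rw [if_pos hsmall]
      exact hsmall
    · push Not at hsmall
      have hM : 0 < cost q G := by
        by_contra hcon
        push Not at hcon
        nlinarith
      obtain ⟨T, hTpot, hTcost⟩ := select g hg hs hs1 hq hlam0 hs' G hG hM
      have hTm : m ≤ T.card := hmin T hTpot
      set G1 := G.filter (fun R => ¬ T ⊆ R) with hG1
      have hsplit : cost q (G.filter (fun R => T ⊆ R)) + cost q G1 = cost q G := by
        unfold cost
        exact Finset.sum_filter_add_sum_filter_not G (fun R => T ⊆ R) _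
      have hrem : 0 < cost q (G.filter (fun R => T ⊆ R)) :=
        lt_of_lt_of_le (mul_pos hM (pow_pos (mul_pos hlam0 hq) _)) hTcost
      have hcard : G1.card ≤ n := by
        have hlt : G1.card < G.card := by
          apply Finset.card_lt_card
          rw [Finset.ssubset_iff_subset_ne]
          refine ⟨Finset.filter_subset _ _, ?_⟩
          intro heq
          rw [heq] at hsplit
          linarith
        omega
      obtain ⟨G', hG'pot, hG'cov, hG'cost⟩ := ih G1 hcard
        (fun R hR => hG R (Finset.mem_filter.1 hR).1)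
      refine ⟨insert T G', ?_, ?_, ?_⟩
      · intro U hU
        rcases Finset.mem_insert.1 hU with rfl | hU
        · exact hTpot
        · exact hG'pot U hU
      · intro R hR
        by_cases hTR : T ⊆ R
        · exact ⟨T, Finset.mem_insert_self _ _, hTR⟩
        · obtain ⟨U, hU, hUR⟩ := hG'cov R (Finset.mem_filter.2 ⟨hR, hTR⟩)
          exact ⟨U, Finset.mem_insert_of_mem hU, hUR⟩
      · have h1 : cost q (insert T G') ≤ q ^ T.card + cost q G' := by
          unfold cost
          by_cases hmem : T ∈ G'
          · rw [Finset.insert_eq_of_mem hmem]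
            have := pow_nonneg hq.le T.card
            linarith
          · rw [Finset.sum_insert hmem]
        -- cost of `T`
        have h2 : Lam * q ^ T.card * cost q G ≤ cost q G - cost q G1 := by
          have h3 : Lam * q ^ T.card ≤ (lam * q) ^ T.card := by
            rw [mul_pow]
            exact mul_le_mul_of_nonneg_right (pow_le_pow_right₀ hlam hTm) (pow_nonneg hq.le _)
          have h4 : Lam * q ^ T.card * cost q G ≤ (lam * q) ^ T.card * cost q G :=
            mul_le_mul_of_nonneg_right h3 hM.le
          have h5 : (lam * q) ^ T.card * cost q G = cost q G * (lam * q) ^ T.card := by ring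
          linarith
        have h6 : Lam * q ^ T.card ≤ 1 - cost q G1 / cost q G := by
          have h7 : Lam * q ^ T.card ≤ (cost q G - cost q G1) / cost q G := by
            rw [le_div_iff₀ hM]
            exact h2
          have h8 : (cost q G - cost q G1) / cost q G = 1 - cost q G1 / cost q G := by
            field_simp
          linarith
        have h9 : Lam * cost q (insert T G') ≤ Lam * q ^ T.card + phi (Lam * cost q G1) := by
          have := mul_le_mul_of_nonneg_left h1 hLam0.le
          linarith
        have hG1nn : 0 ≤ cost q G1 := cost_nonneg hq.le G1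
        have hphiG : phi (Lam * cost q G) = 2 + Real.log (Lam * cost q G) := by
          unfold phi
          rw [if_neg (not_le.2 hsmall)]
        rw [hphiG]
        by_cases hsm1 : Lam * cost q G1 ≤ 1
        · have h10 : phi (Lam * cost q G1) = 1 := by
            unfold phi
            rw [if_pos hsm1]
          have h11 : 0 ≤ cost q G1 / cost q G := div_nonneg hG1nn hM.le
          have h12 : 0 ≤ Real.log (Lam * cost q G) := Real.log_nonneg hsmall.le
          linarith
        · push Not at hsm1
          have h10 : phi (Lam * cost q G1) = 2 + Real.log (Lam * cost q G1) := by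
            unfold phi
            rw [if_neg (not_le.2 hsm1)]
          have hG1pos : 0 < cost q G1 := by
            by_contra hcon
            push Not at hcon
            nlinarith
          have h13 : 1 - cost q G1 / cost q G ≤ Real.log (cost q G / cost q G1) := by
            have := Real.one_sub_inv_le_log_of_pos (div_pos hM hG1pos)
            rwa [inv_div] at this
          have h14 : Real.log (Lam * cost q G) =
              Real.log (Lam * cost q G1) + Real.log (cost q G / cost q G1) := by
            rw [← Real.log_mul (by positivity) (by positivity)]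
            congr 1
            field_simp
          linarith


end Proof

end P034F
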